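import Vale.Agent.P113.H280.Rho

namespace Vale.Agent.P113.H280

open MeasureTheory Set
open scoped ContDiff

/-- A bump: `s ↦ s^k ρ^{(j)}(a s - b)` or `s ↦ s^k π_ℓ(a s - b)`. -/
inductive QBump
  | rho (k j : ℕ) (a b : ℚ)
  | plat (k : ℕ) (l a b : ℚ)

namespace QBump

/-- The side conditions `a ≠ 0` (and `ℓ > 0`). -/
def Valid : QBump → Prop
  | .rho _ _ a _ => a ≠ 0
  | .plat _ l a _ => a ≠ 0 ∧ 0 < l

/-- The function denoted by a bump. -/
noncomputable def eval : QBump → ℝ → ℝ
  | .rho k j a b, s => s ^ k * iteratedDeriv j P113.rho (a * s - b)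
  | .plat k l a b, s => s ^ k * plateau l (a * s - b)

/-- Symbolic derivative: a rational combination of bumps. -/
def der : QBump → List (ℚ × QBump)
  | .rho k j a b => [((k : ℚ), .rho (k - 1) j a b), (a, .rho k (j + 1) a b)]
  | .plat k l a b => [((k : ℚ), .plat (k - 1) l a b), (a, .rho k 0 a b), (-a, .rho k 0 a (b + l))]

theorem valid_der {g : QBump} (hg : g.Valid) : ∀ p ∈ g.der, p.2.Valid := by
  cases g with
  | rho k j a b =>
    intro p hp
    simp only [der, List.mem_cons, List.not_mem_nil, or_false] at hp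
    rcases hp with rfl | rfl <;> exact hg
  | plat k l a b =>
    intro p hp
    simp only [der, List.mem_cons, List.not_mem_nil, or_false] at hp
    rcases hp with rfl | rfl | rfl
    · exact hg
    · exact hg.1
    · exact hg.1

theorem hasDerivAt_eval (g : QBump) (s : ℝ) :
    HasDerivAt g.eval ((g.der.map fun p => (p.1 : ℝ) * p.2.eval s).sum) s := by
  cases g with
  | rho k j a b =>
    have h1 : HasDerivAt (fun s : ℝ => s ^ k) ((k : ℝ) * s ^ (k - 1)) s := hasDerivAt_pow k s
    have h2 : HasDerivAt (fun s : ℝ => (a : ℝ) * s - b) (a : ℝ) s := by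
      simpa using ((hasDerivAt_id s).const_mul (a : ℝ)).sub_const (b : ℝ)
    have h3 := (iteratedDeriv_rho_hasDerivAt j ((a : ℝ) * s - b)).comp s h2
    have h4 := h1.mul h3
    refine h4.congr_deriv ?_
    simp only [der, eval, List.map_cons, List.map_nil, List.sum_cons, List.sum_nil,
      Function.comp_apply]
    push_cast
    ring
  | plat k l a b =>
    have h1 : HasDerivAt (fun s : ℝ => s ^ k) ((k : ℝ) * s ^ (k - 1)) s := hasDerivAt_pow k s
    have h2 : HasDerivAt (fun s : ℝ => (a : ℝ) * s - b) (a : ℝ) s := by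
      simpa using ((hasDerivAt_id s).const_mul (a : ℝ)).sub_const (b : ℝ)
    have h3 := (plat_hasDerivAt l ((a : ℝ) * s - b)).comp s h2
    have h4 := h1.mul h3
    refine h4.congr_deriv ?_
    simp only [der, eval, List.map_cons, List.map_nil, List.sum_cons, List.sum_nil,
      Function.comp_apply, iteratedDeriv_zero]
    push_cast
    rw [sub_sub]
    ring

theorem contDiff_eval (g : QBump) : ContDiff ℝ ∞ g.eval := by
  cases g with
  | rho k j a b =>
    exact (contDiff_id.pow k).mul ((iteratedDeriv_rho_contDiff j).comp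
      ((contDiff_const.mul contDiff_id).sub contDiff_const))
  | plat k l a b =>
    exact (contDiff_id.pow k).mul ((plat_contDiff l).comp
      ((contDiff_const.mul contDiff_id).sub contDiff_const))

/-- The (relative) core interval: outside it the bump vanishes. -/
def core : QBump → ℚ × ℚ
  | .rho _ _ a b => (min ((b - 1) / a) ((b + 1) / a), max ((b - 1) / a) ((b + 1) / a))
  | .plat _ l a b => (min ((b - 1) / a) ((b + l + 1) / a), max ((b - 1) / a) ((b + l + 1) / a))

theorem eval_eq_zero_of_not_mem {g : QBump} (hg : g.Valid) {s : ℝ}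
    (hs : s ∉ Set.Ioo ((g.core.1 : ℚ) : ℝ) ((g.core.2 : ℚ) : ℝ)) : g.eval s = 0 := by
  cases g with
  | rho k j a b =>
    have ha : (a : ℝ) ≠ 0 := by exact_mod_cast hg
    simp only [eval]
    rw [iteratedDeriv_rho_zero, mul_zero]
    by_contra hlt
    apply hs
    rw [not_le, abs_lt] at hlt
    simp only [core]
    push_cast
    rw [Set.mem_Ioo, min_lt_iff, lt_max_iff]
    rcases lt_or_gt_of_ne ha with h | h
    · constructor
      · right; rw [div_lt_iff_of_neg h]; linarith [hlt.2]
      · left; rw [lt_div_iff_of_neg h]; linarith [hlt.1]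
    · constructor
      · left; rw [div_lt_iff₀ h]; linarith [hlt.1]
      · right; rw [lt_div_iff₀ h]; linarith [hlt.2]
  | plat k l a b =>
    have ha : (a : ℝ) ≠ 0 := by exact_mod_cast hg.1
    have hl : (0 : ℝ) ≤ l := by exact_mod_cast hg.2.le
    simp only [eval]
    by_contra hne
    have hne' : plateau l (a * s - b) ≠ 0 := right_ne_zero_of_mul hne
    have hlt := plat_support hl hne'
    apply hs
    rw [Set.mem_Ioo] at hlt
    simp only [core]
    push_cast
    rw [Set.mem_Ioo, min_lt_iff, lt_max_iff]
    rcases lt_or_gt_of_ne ha with h | h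
    · constructor
      · right; rw [div_lt_iff_of_neg h]; linarith [hlt.2]
      · left; rw [lt_div_iff_of_neg h]; linarith [hlt.1]
    · constructor
      · left; rw [div_lt_iff₀ h]; linarith [hlt.1]
      · right; rw [lt_div_iff₀ h]; linarith [hlt.2]

theorem support_eval_subset {g : QBump} (hg : g.Valid) :
    Function.support g.eval ⊆ Set.Ioo ((g.core.1 : ℚ) : ℝ) ((g.core.2 : ℚ) : ℝ) := by
  intro s hs
  by_contra h
  exact hs (eval_eq_zero_of_not_mem hg h)

end QBump

end Vale.Agent.P113.H280
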