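import Vale.Agent.P113.H280.Term

namespace Vale.Agent.P113.H280

open Set
open scoped ContDiff

/-- the standard data of a rational number -/
def encQ (q : ℚ) : RatCode := (decide (0 ≤ q.num), q.num.natAbs, q.den - 1)

@[simp] theorem encQ_val (q : ℚ) : ratVal (encQ q) = q := by
  unfold ratVal encQ
  have h : ((q.den - 1 : ℕ) : ℚ) + 1 = q.den := by
    have : 1 ≤ q.den := q.pos
    push_cast [Nat.cast_sub this]
    ring
  simp only [decide_eq_true_eq]
  rw [h]
  have hq := Rat.num_div_den q
  by_cases h0 : 0 ≤ q.num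
  · rw [if_pos h0, one_mul]
    have : ((q.num.natAbs : ℕ) : ℚ) = (q.num : ℚ) := by
      rw [Nat.cast_natAbs, abs_of_nonneg h0]
    rw [this]
    exact hq
  · rw [if_neg h0]
    have : ((q.num.natAbs : ℕ) : ℚ) = -(q.num : ℚ) := by
      rw [Nat.cast_natAbs, abs_of_neg (not_le.1 h0)]
      push_cast
      ring
    rw [this, neg_div, neg_one_mul, neg_neg]
    exact hq

/-- the data of a bump -/
def encB : QBump → Bump
  | .rho k j a b => ⟨Sum.inl j, k, encQ a, encQ b⟩
  | .plat k l a b => ⟨Sum.inr (encQ l), k, encQ a, encQ b⟩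

theorem fn_encB (g : QBump) : (encB g).fn = g.eval := by
  funext s
  cases g <;> simp [Bump.fn, encB, QBump.eval]

theorem valid_encB {g : QBump} (hg : g.Valid) : (encB g).Valid := by
  cases g with
  | rho k j a b =>
    refine ⟨?_, ?_⟩
    · have h : a ≠ 0 := hg
      simpa [encB] using h
    · intro l hl
      simp [encB] at hl
  | plat k l a b =>
    refine ⟨?_, ?_⟩
    · simpa [encB] using hg.1
    · intro l' hl
      simp only [encB, Sum.inr.injEq] at hl
      rw [← hl, encQ_val]
      exact hg.2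

/-- back from the data of a bump -/
def decB (g : Bump) : QBump :=
  match g.kind with
  | Sum.inl j => .rho g.k j (ratVal g.a) (ratVal g.b)
  | Sum.inr l => .plat g.k (ratVal l) (ratVal g.a) (ratVal g.b)

theorem eval_decB (g : Bump) : (decB g).eval = g.fn := by
  funext s
  obtain ⟨kind, k, a, b⟩ := g
  cases kind <;> simp [Bump.fn, decB, QBump.eval]

theorem valid_decB {g : Bump} (hg : g.Valid) : (decB g).Valid := by
  obtain ⟨kind, k, a, b⟩ := g
  cases kind with
  | inl j => exact hg.1
  | inr l => exact ⟨hg.1, hg.2 l rfl⟩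

def encT : TFac → Bool × Bump
  | .raw g => (false, encB g)
  | .per g => (true, encB g)

/-- the data of a term -/
def QTerm.enc (T : QTerm) : Term where
  q := encQ T.q
  m := T.m
  n := T.n
  logs := T.logs.map encQ
  time := T.time.map encT
  space := fun i => (T.sp i).map encB

theorem space_enc (L : List QBump) (y : ℝ) :
    ((L.map encB).map fun g => periodize g.fn y).prod = prodEval QBump.pev L y := by
  unfold prodEval
  rw [List.map_map]
  congr 1
  apply List.map_congr_left
  intro g _
  simp only [Function.comp]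
  rw [fn_encB]
  rfl

theorem time_enc (L : List TFac) (t : ℝ) :
    ((L.map encT).map fun g => if g.1 then periodize g.2.fn t else g.2.fn t).prod
      = prodEval TFac.eval L t := by
  unfold prodEval
  rw [List.map_map]
  congr 1
  apply List.map_congr_left
  intro g _
  cases g with
  | raw g => simp [encT, fn_encB, TFac.eval]
  | per g =>
    simp only [Function.comp, encT, TFac.eval, if_true]
    rw [fn_encB]
    rfl

theorem QTerm.eval_enc (ν : ℝ) (T : QTerm) (t : ℝ) (x : Fin 3 → ℝ) :
    T.enc.eval ν t x = T.eval ν t x := by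
  unfold Term.eval QTerm.enc QTerm.eval QTerm.coef
  simp only [space_enc, time_enc]
  simp only [encQ_val, List.map_map, Function.comp_def]

theorem QTerm.valid_enc {T : QTerm} (h : T.Valid) : T.enc.Valid := by
  refine ⟨?_, ?_, ?_⟩
  · intro r hr
    simp only [QTerm.enc, List.mem_map] at hr
    obtain ⟨r', hr', rfl⟩ := hr
    rw [encQ_val]
    exact h.1 r' hr'
  · intro g hg
    simp only [QTerm.enc, List.mem_map] at hg
    obtain ⟨g', hg', rfl⟩ := hg
    cases g' with
    | raw g' => exact valid_encB (h.2.1 _ hg')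
    | per g' => exact valid_encB (h.2.1 _ hg')
  · intro i g hg
    simp only [QTerm.enc, List.mem_map] at hg
    obtain ⟨g', hg', rfl⟩ := hg
    exact valid_encB (h.2.2 _ _ hg')

theorem QTerm.isPeriodic_enc {T : QTerm} (h : T.IsPer) : T.enc.isPeriodic = true := by
  unfold Term.isPeriodic QTerm.enc
  simp only [List.all_map, List.all_eq_true, Function.comp]
  intro f hf
  have := h f hf
  cases f with
  | raw g => exact this.elim
  | per g => rfl

/-- the sum of the encoded terms -/
theorem sum_enc (ν : ℝ) (L : List QTerm) (t : ℝ) (x : Fin 3 → ℝ) :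
    ((L.map QTerm.enc).map fun τ => τ.eval ν t x).sum = evalL ν L t x := by
  unfold evalL
  rw [List.map_map]
  congr 1
  exact List.map_congr_left fun T _ => T.eval_enc ν t x

/-! ### `∂ₜ u - ν Δ u` on lists -/

/-- Laplacian on lists. -/
def lapL (L : List QTerm) : List QTerm :=
  dxL 0 (dxL 0 L) ++ (dxL 1 (dxL 1 L) ++ dxL 2 (dxL 2 L))

/-- `∂ₜ u - ν Δ u` on lists. -/
def forceL (L : List QTerm) : List QTerm := dtL L ++ smulL (-1) 1 0 (lapL L)

theorem evalL_lapL (ν : ℝ) (L : List QTerm) (t : ℝ) (x : Fin 3 → ℝ) :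
    evalL ν (lapL L) t x = ∑ j, evalL ν (dxL j (dxL j L)) t x := by
  rw [lapL, evalL_append, evalL_append, Fin.sum_univ_three, add_assoc]

theorem evalL_forceL (ν : ℝ) (L : List QTerm) (t : ℝ) (x : Fin 3 → ℝ) :
    evalL ν (forceL L) t x = evalL ν (dtL L) t x - ν * ∑ j, evalL ν (dxL j (dxL j L)) t x := by
  rw [forceL, evalL_append, evalL_smulL, evalL_lapL]
  push_cast
  simp only [pow_one, zpow_zero, mul_one]
  ring

theorem ValidL.lapL {L : List QTerm} (h : ValidL L) : ValidL (lapL L) :=
  ((h.dxL 0).dxL 0).append (((h.dxL 1).dxL 1).append ((h.dxL 2).dxL 2))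

theorem ValidL.forceL {L : List QTerm} (h : ValidL L) : ValidL (forceL L) :=
  h.dtL.append (h.lapL.smulL _ _ _)

/-- all the terms are periodic -/
def PerL (L : List QTerm) : Prop := ∀ T ∈ L, T.IsPer

theorem PerL.append {L L' : List QTerm} (h : PerL L) (h' : PerL L') : PerL (L ++ L') := by
  intro T hT
  rcases List.mem_append.1 hT with hT | hT
  · exact h T hT
  · exact h' T hT

theorem PerL.smulL {L : List QTerm} (h : PerL L) (q : ℚ) (m : ℕ) (n : ℤ) :
    PerL (smulL q m n L) := by
  intro T hT
  obtain ⟨T', hT', rfl⟩ := List.mem_map.1 hT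
  exact (h T' hT')

theorem PerL.dtL {L : List QTerm} (h : PerL L) : PerL (dtL L) := by
  intro T hT
  obtain ⟨T1, hT1, hT⟩ := List.mem_flatMap.1 hT
  exact QTerm.isPer_dt (h _ hT1) _ hT

theorem PerL.dxL {L : List QTerm} (h : PerL L) (i : Fin 3) : PerL (dxL i L) := by
  intro T hT
  obtain ⟨T1, hT1, hT⟩ := List.mem_flatMap.1 hT
  exact QTerm.isPer_dx (h _ hT1) i _ hT

theorem PerL.lapL {L : List QTerm} (h : PerL L) : PerL (lapL L) :=
  ((h.dxL 0).dxL 0).append (((h.dxL 1).dxL 1).append ((h.dxL 2).dxL 2))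

theorem PerL.forceL {L : List QTerm} (h : PerL L) : PerL (forceL L) :=
  h.dtL.append (h.lapL.smulL _ _ _)

theorem PerL.mulL {L L' : List QTerm} (h : PerL L) (h' : PerL L') : PerL (mulL L L') := by
  intro T hT
  obtain ⟨T1, hT1, hT⟩ := List.mem_flatMap.1 hT
  obtain ⟨T2, hT2, rfl⟩ := List.mem_map.1 hT
  intro f hf
  rcases List.mem_append.1 hf with hf | hf
  · exact h _ hT1 f hf
  · exact h' _ hT2 f hf

end Vale.Agent.P113.H280
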