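import Vale.Agent.P113.H280.Enc
import Vale.Agent.P113.H854.Sol

namespace Vale.Agent.P113.H280

open Set
open scoped ContDiff
open Vale.Agent.P113.H854 (pd lap ee th gs per kap)

/-! ### spatial lists -/

/-- A finite sum of terms `q κ^n h₁(x₁) h₂(x₂) h₃(x₃)`. -/
abbrev SList : Type := List (RatCode × ℤ × (Fin 3 → List Bump))

/-- All the bumps are valid. -/
def SValid (L : SList) : Prop := ∀ c ∈ L, ∀ i, ∀ g ∈ c.2.2 i, g.Valid

/-- The value of a spatial list. -/
noncomputable def evS (L : SList) (x : Fin 3 → ℝ) : ℝ :=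
  (L.map fun c => (ratVal c.1 : ℝ) * kappa ^ c.2.1 *
    ∏ i, ((c.2.2 i).map fun g => periodize g.fn (x i)).prod).sum

/-- the term of a spatial item -/
def toQ (c : RatCode × ℤ × (Fin 3 → List Bump)) : QTerm :=
  ⟨ratVal c.1, 0, c.2.1, [], [], fun i => (c.2.2 i).map decB⟩

theorem evalL_toQ (ν : ℝ) (L : SList) (t : ℝ) (x : Fin 3 → ℝ) :
    evalL ν (L.map toQ) t x = evS L x := by
  unfold evalL evS
  rw [List.map_map]
  congr 1
  apply List.map_congr_left
  intro c _
  simp only [Function.comp, QTerm.eval, QTerm.coef, toQ, prodEval_nil, pow_zero, mul_one,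
    List.map_nil, List.prod_nil]
  congr 1
  apply Finset.prod_congr rfl
  intro i _
  unfold prodEval
  rw [List.map_map]
  congr 1
  apply List.map_congr_left
  intro g _
  simp only [Function.comp, QBump.pev]
  rw [eval_decB]
  rfl

theorem validL_toQ {L : SList} (h : SValid L) : ValidL (L.map toQ) := by
  intro T hT
  obtain ⟨c, hc, rfl⟩ := List.mem_map.1 hT
  refine ⟨?_, ?_, ?_⟩
  · intro r hr
    simp [toQ] at hr
  · intro r hr
    simp [toQ] at hr
  · intro i g hg
    simp only [toQ, List.mem_map] at hg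
    obtain ⟨g', hg', rfl⟩ := hg
    exact valid_decB (h c hc i g' hg')

theorem perL_toQ (L : SList) : PerL (L.map toQ) := by
  intro T hT
  obtain ⟨c, hc, rfl⟩ := List.mem_map.1 hT
  intro f hf
  simp [toQ] at hf

theorem evS_contDiff {L : SList} (h : SValid L) : ContDiff ℝ ∞ (evS L) := by
  have h1 := contDiff_evalL (ν := 0) (validL_toQ h)
  have h2 : ContDiff ℝ ∞ (fun x : Fin 3 → ℝ => ((0 : ℝ), x)) :=
    contDiff_const.prodMk contDiff_id
  have h3 := h1.comp h2
  have e : evS L = (fun p : ℝ × (Fin 3 → ℝ) => evalL 0 (L.map toQ) p.1 p.2) ∘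
      (fun x : Fin 3 → ℝ => ((0 : ℝ), x)) := by
    funext x
    simp only [Function.comp]
    rw [evalL_toQ]
  rw [e]
  exact h3

theorem evS_add_int (L : SList) (x : Fin 3 → ℝ) (n : Fin 3 → ℤ) :
    evS L (fun i => x i + n i) = evS L x := by
  rw [← evalL_toQ 0 L 0, ← evalL_toQ 0 L 0, evalL_add_int]

/-! ### time factors -/

/-- the term `θ_j(t)` -/
def thT (j : ℕ) : QTerm :=
  ⟨10, 0, -1, [], [.per (.rho 0 0 10 (2 * j + 1))], fun _ => []⟩

theorem thT_valid (j : ℕ) : (thT j).Valid := by
  refine ⟨?_, ?_, ?_⟩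
  · intro r hr
    simp [thT] at hr
  · intro f hf
    simp only [thT, List.mem_singleton] at hf
    subst hf
    show (10 : ℚ) ≠ 0
    norm_num
  · intro i g hg
    simp [thT] at hg

theorem thT_isPer (j : ℕ) : (thT j).IsPer := by
  intro f hf
  simp only [thT, List.mem_singleton] at hf
  subst hf
  trivial

theorem thT_eval (ν : ℝ) (j : Fin 4) (t : ℝ) (x : Fin 3 → ℝ) :
    (thT (j.succ : Fin 5)).eval ν t x = th 5 j.succ t := by
  have h1 : ((j.succ : Fin 5) : ℕ) ≠ 0 := by simp
  unfold th
  rw [if_neg h1]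
  simp only [QTerm.eval, QTerm.coef, thT, prodEval_cons, prodEval_nil, TFac.eval, QBump.pev,
    List.map_nil, List.prod_nil, pow_zero, mul_one, Finset.prod_const_one]
  have h2 : (QBump.rho 0 0 10 (2 * ((j.succ : Fin 5) : ℕ) + 1)).eval
      = gs 5 ((j.succ : Fin 5) : ℕ) := by
    funext s
    simp only [QBump.eval, gs, iteratedDeriv_zero, pow_zero, one_mul]
    rw [H854.rho_eq_rho]
    congr 1
    push_cast
    ring
  rw [h2, zpow_neg_one]
  rw [← H854.kap_eq_kappa]
  push_cast
  ring

/-! ### partial derivatives -/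

theorem evalL_space_contDiff {ν : ℝ} {L : List QTerm} (h : ValidL L) (t : ℝ) :
    ContDiff ℝ ∞ (fun x : Fin 3 → ℝ => evalL ν L t x) := by
  have h1 := contDiff_evalL (ν := ν) h
  have h2 : ContDiff ℝ ∞ (fun x : Fin 3 → ℝ => (t, x)) := contDiff_const.prodMk contDiff_id
  exact h1.comp h2

theorem evalL_dxL {ν : ℝ} {L : List QTerm} (h : ValidL L) (i : Fin 3) (t : ℝ)
    (x : Fin 3 → ℝ) : evalL ν (dxL i L) t x = pd i (fun x => evalL ν L t x) x := by
  have h1 := hasDerivAt_evalL_space (ν := ν) h i t x (x i)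
  rw [Function.update_eq_self] at h1
  have h2 : HasDerivAt (fun s => (fun x => evalL ν L t x) (Function.update x i s))
      (pd i (fun x => evalL ν L t x) x) (x i) :=
    H854.hasDerivAt_update
      (((evalL_space_contDiff h t).differentiable (by simp)).differentiableAt) i
  exact h1.unique h2

theorem pd_const_mul {f : (Fin 3 → ℝ) → ℝ} (hf : Differentiable ℝ f) (c : ℝ) (i : Fin 3) :
    pd i (fun x => c * f x) = fun x => c * pd i f x := by
  funext x
  unfold pd
  rw [fderiv_const_mul (hf x)]
  simp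

/-- Value of `∂ₜ u - ν Δ u` for `u = θ_j F`. -/
theorem evalL_forceL_mul (ν : ℝ) (j : Fin 4) {L : SList} (h : SValid L) (t : ℝ)
    (x : Fin 3 → ℝ) :
    evalL ν (forceL (mulL [thT (j.succ : Fin 5)] (L.map toQ))) t x =
      deriv (th 5 j.succ) t * evS L x - ν * (th 5 j.succ t * lap (evS L) x) := by
  set U := mulL [thT (j.succ : Fin 5)] (L.map toQ) with hU
  have hUv : ValidL U := by
    refine ValidL.mulL ?_ (validL_toQ h)
    intro T hT
    rw [List.mem_singleton] at hT
    subst hT
    exact thT_valid _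
  have hUe : ∀ s y, evalL ν U s y = th 5 j.succ s * evS L y := by
    intro s y
    rw [hU, evalL_mulL, evalL_cons, evalL_nil, add_zero, thT_eval, evalL_toQ]
  have hF : ContDiff ℝ ∞ (evS L) := evS_contDiff h
  rw [evalL_forceL]
  have ht : evalL ν (dtL U) t x = deriv (th 5 j.succ) t * evS L x := by
    have h1 := hasDerivAt_evalL_time (ν := ν) hUv t x
    have h2 : HasDerivAt (fun s => th 5 j.succ s * evS L x)
        (deriv (th 5 j.succ) t * evS L x) t := by
      have h3 : DifferentiableAt ℝ (th 5 j.succ) t :=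
        ((H854.th_contDiff j.succ (n := 1)).differentiable one_ne_zero) t
      exact h3.hasDerivAt.mul_const _
    have e : (fun s => evalL ν U s x) = fun s => th 5 j.succ s * evS L x := by
      funext s; exact hUe s x
    rw [e] at h1
    exact h1.unique h2
  have hx : ∀ i, evalL ν (dxL i (dxL i U)) t x = th 5 j.succ t * pd i (pd i (evS L)) x := by
    intro i
    rw [evalL_dxL (hUv.dxL i) i t x]
    have e1 : (fun x => evalL ν (dxL i U) t x) = fun x => th 5 j.succ t * pd i (evS L) x := by
      funext y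
      rw [evalL_dxL hUv i t y]
      have e : (fun x => evalL ν U t x) = fun x => th 5 j.succ t * evS L x := by
        funext y; exact hUe t y
      rw [e, pd_const_mul (hF.differentiable (by simp))]
    rw [e1]
    have hd : Differentiable ℝ (pd i (evS L)) :=
      (H854.pd_contDiff (m := 1) (n := 2) (contDiff_infty.1 hF 2) (by norm_num) i).differentiable
        one_ne_zero
    rw [pd_const_mul hd]
  rw [ht]
  simp only [hx]
  unfold lap
  rw [← Finset.mul_sum]

/-- The lists of the periodic part of the force. -/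
def forceA (G : Fin 4 → SList) (dir : Fin 4 → Fin 3) (i : Fin 3) : List Term :=
  (List.finRange 4).flatMap fun j =>
    if dir j = i then (forceL (mulL [thT (j.succ : Fin 5)] ((G j).map toQ))).map QTerm.enc else []

theorem forceA_valid {G : Fin 4 → SList} (hG : ∀ j, SValid (G j)) (dir : Fin 4 → Fin 3)
    (i : Fin 3) : ∀ τ ∈ forceA G dir i, τ.Valid := by
  intro τ hτ
  obtain ⟨j, _, hτ⟩ := List.mem_flatMap.1 hτ
  split_ifs at hτ with hd
  · obtain ⟨T, hT, rfl⟩ := List.mem_map.1 hτ
    refine QTerm.valid_enc ?_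
    refine ValidL.forceL (ValidL.mulL ?_ (validL_toQ (hG j))) T hT
    intro T' hT'
    rw [List.mem_singleton] at hT'
    subst hT'
    exact thT_valid _
  · simp at hτ

theorem forceA_isPeriodic (G : Fin 4 → SList) (dir : Fin 4 → Fin 3)
    (i : Fin 3) : ∀ τ ∈ forceA G dir i, τ.isPeriodic = true := by
  intro τ hτ
  obtain ⟨j, _, hτ⟩ := List.mem_flatMap.1 hτ
  split_ifs at hτ with hd
  · obtain ⟨T, hT, rfl⟩ := List.mem_map.1 hτ
    refine QTerm.isPeriodic_enc ?_
    refine PerL.forceL (PerL.mulL ?_ (perL_toQ (G j))) T hT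
    intro T' hT'
    rw [List.mem_singleton] at hT'
    subst hT'
    exact thT_isPer _
  · simp at hτ

theorem force_forceA {G : Fin 4 → SList} (hG : ∀ j, SValid (G j)) (dir : Fin 4 → Fin 3)
    (ν t : ℝ) (x : Fin 3 → ℝ) (i : Fin 3) :
    force ν (forceA G dir) t x i =
      ∑ j : Fin 4, (deriv (th 5 j.succ) t * evS (G j) x -
        ν * (th 5 j.succ t * lap (evS (G j)) x)) * ee (dir j) i := by
  have key : ∀ l : List (Fin 4), ((l.flatMap fun j => if dir j = i then
      (forceL (mulL [thT (j.succ : Fin 5)] ((G j).map toQ))).map QTerm.enc else []).map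
        fun τ => τ.eval ν t x).sum = (l.map fun j : Fin 4 => (deriv (th 5 j.succ) t * evS (G j) x -
        ν * (th 5 j.succ t * lap (evS (G j)) x)) * ee (dir j) i).sum := by
    intro l
    induction l with
    | nil => simp
    | cons j l ih =>
      rw [List.flatMap_cons, List.map_append, List.sum_append, ih, List.map_cons, List.sum_cons]
      congr 1
      split_ifs with hd
      · rw [sum_enc, evalL_forceL_mul ν j (hG j)]
        simp [ee, hd]
      · have : ee (dir j) i = 0 := by
          simp [ee, Ne.symm hd]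
        rw [this]
        simp
  unfold force forceA
  rw [key, ← List.ofFn_eq_map, List.sum_ofFn]

/-- The lists of the periodic part of the force, with all their properties. -/
theorem exists_force_lists {G : Fin 4 → SList} (hG : ∀ j, SValid (G j)) (dir : Fin 4 → Fin 3) :
    ∃ A : Fin 3 → List Term, (∀ i, ∀ τ ∈ A i, τ.Valid) ∧
      (∀ i, ∀ τ ∈ A i, τ.isPeriodic = true) ∧
      ∀ ν t x i, force ν A t x i =
        ∑ j : Fin 4, (deriv (th 5 j.succ) t * evS (G j) x -
          ν * (th 5 j.succ t * lap (evS (G j)) x)) * ee (dir j) i :=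
  ⟨forceA G dir, forceA_valid hG dir, forceA_isPeriodic G dir, force_forceA hG dir⟩

end Vale.Agent.P113.H280
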