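import Vale.Agent.P113.H280.Bump
import Vale.Agent.P113.H854.Per

namespace Vale.Agent.P113.H280

open Set
open scoped ContDiff
open Vale.Agent.P113.H854 (per)

/-! ### symbolic derivative of a product of factors -/

section ListDer

variable {α : Type*}

/-- Leibniz rule on lists of factors. -/
def listDer (der : α → List (ℚ × α)) : List α → List (ℚ × List α)
  | [] => []
  | g :: L => (der g).map (fun p => (p.1, p.2 :: L)) ++
      (listDer der L).map (fun p => (p.1, g :: p.2))

/-- value of a product of factors -/
noncomputable def prodEval (ev : α → ℝ → ℝ) (L : List α) (s : ℝ) : ℝ :=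
  (L.map fun g => ev g s).prod

/-- value of a rational combination of products of factors -/
noncomputable def combEval (ev : α → ℝ → ℝ) (C : List (ℚ × List α)) (s : ℝ) : ℝ :=
  (C.map fun p => (p.1 : ℝ) * prodEval ev p.2 s).sum

@[simp] theorem prodEval_nil (ev : α → ℝ → ℝ) (s : ℝ) : prodEval ev [] s = 1 := by
  simp [prodEval]

@[simp] theorem prodEval_cons (ev : α → ℝ → ℝ) (g : α) (L : List α) (s : ℝ) :
    prodEval ev (g :: L) s = ev g s * prodEval ev L s := by
  simp [prodEval]

theorem prodEval_append (ev : α → ℝ → ℝ) (L L' : List α) (s : ℝ) :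
    prodEval ev (L ++ L') s = prodEval ev L s * prodEval ev L' s := by
  simp [prodEval]

theorem combEval_append (ev : α → ℝ → ℝ) (L L' : List (ℚ × List α)) (s : ℝ) :
    combEval ev (L ++ L') s = combEval ev L s + combEval ev L' s := by
  simp [combEval]

theorem hasDerivAt_prodEval {ev : α → ℝ → ℝ} {der : α → List (ℚ × α)} {good : α → Prop}
    (hd : ∀ g, good g → ∀ s, HasDerivAt (ev g) ((der g).map fun p => (p.1 : ℝ) * ev p.2 s).sum s)
    {L : List α} (hL : ∀ g ∈ L, good g) (s : ℝ) :
    HasDerivAt (prodEval ev L) (combEval ev (listDer der L) s) s := by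
  induction L with
  | nil =>
    have : prodEval ev ([] : List α) = fun _ => (1 : ℝ) := by funext s; simp
    rw [this]
    simpa [combEval, listDer] using hasDerivAt_const s (1 : ℝ)
  | cons g L ih =>
    have h1 := hd g (hL g (List.mem_cons_self)) s
    have h2 := ih (fun g' hg' => hL g' (List.mem_cons_of_mem _ hg'))
    have h3 := h1.mul h2
    have e : prodEval ev (g :: L) = ev g * prodEval ev L := by
      funext s; simp
    rw [e]
    refine h3.congr_deriv ?_
    rw [listDer, combEval_append]
    congr 1
    · unfold combEval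
      rw [List.map_map, ← List.sum_map_mul_right]
      congr 1
      apply List.map_congr_left
      intro p _
      simp [Function.comp]
      ring
    · unfold combEval
      rw [List.map_map, ← List.sum_map_mul_left]
      congr 1
      apply List.map_congr_left
      intro p _
      simp [Function.comp]
      ring

theorem listDer_good {der : α → List (ℚ × α)} {good : α → Prop}
    (hd : ∀ g, good g → ∀ p ∈ der g, good p.2) {L : List α} (hL : ∀ g ∈ L, good g) :
    ∀ p ∈ listDer der L, ∀ g ∈ p.2, good g := by
  induction L with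
  | nil => intro p hp; simp [listDer] at hp
  | cons g L ih =>
    intro p hp g' hg'
    rw [listDer, List.mem_append, List.mem_map, List.mem_map] at hp
    rcases hp with ⟨p', hp', rfl⟩ | ⟨p', hp', rfl⟩
    · rcases List.mem_cons.1 hg' with rfl | h
      · exact hd g (hL g List.mem_cons_self) p' hp'
      · exact hL g' (List.mem_cons_of_mem _ h)
    · rcases List.mem_cons.1 hg' with rfl | h
      · exact hL _ List.mem_cons_self
      · exact ih (fun g'' h'' => hL g'' (List.mem_cons_of_mem _ h'')) p' hp' g' h

/-- a property of some factor (such as vanishing for large times) is kept by the Leibniz rule -/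
theorem listDer_exists {der : α → List (ℚ × α)} {van : α → Prop}
    (hd : ∀ g, van g → ∀ p ∈ der g, van p.2) {L : List α} (hL : ∃ g ∈ L, van g) :
    ∀ p ∈ listDer der L, ∃ g ∈ p.2, van g := by
  induction L with
  | nil => intro p hp; simp [listDer] at hp
  | cons g L ih =>
    intro p hp
    rw [listDer, List.mem_append, List.mem_map, List.mem_map] at hp
    rcases hp with ⟨p', hp', rfl⟩ | ⟨p', hp', rfl⟩
    · obtain ⟨g0, hg0, hv⟩ := hL
      rcases List.mem_cons.1 hg0 with rfl | h
      · exact ⟨p'.2, List.mem_cons_self, hd _ hv p' hp'⟩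
      · exact ⟨g0, List.mem_cons_of_mem _ h, hv⟩
    · obtain ⟨g0, hg0, hv⟩ := hL
      rcases List.mem_cons.1 hg0 with rfl | h
      · exact ⟨g0, List.mem_cons_self, hv⟩
      · obtain ⟨g1, h1, hv1⟩ := ih ⟨g0, h, hv⟩ p' hp'
        exact ⟨g1, List.mem_cons_of_mem _ h1, hv1⟩

theorem prodEval_contDiff {ev : α → ℝ → ℝ} {L : List α} (hL : ∀ g ∈ L, ContDiff ℝ ∞ (ev g)) :
    ContDiff ℝ ∞ (prodEval ev L) := by
  induction L with
  | nil =>
    have : prodEval ev ([] : List α) = fun _ => (1 : ℝ) := by funext s; simp
    rw [this]; exact contDiff_const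
  | cons g L ih =>
    have e : prodEval ev (g :: L) = fun s => ev g s * prodEval ev L s := by
      funext s; simp
    rw [e]
    exact (hL g List.mem_cons_self).mul (ih fun g' h => hL g' (List.mem_cons_of_mem _ h))

theorem prodEval_eq_zero {ev : α → ℝ → ℝ} {L : List α} {g : α} (hg : g ∈ L) {s : ℝ}
    (h : ev g s = 0) : prodEval ev L s = 0 := by
  unfold prodEval
  exact List.prod_eq_zero (List.mem_map.2 ⟨g, hg, h⟩)

theorem prodEval_periodic {ev : α → ℝ → ℝ} {L : List α}
    (hL : ∀ g ∈ L, ∀ s, ev g (s + 1) = ev g s) (s : ℝ) :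
    prodEval ev L (s + 1) = prodEval ev L s := by
  unfold prodEval
  congr 1
  exact List.map_congr_left fun g hg => hL g hg s

theorem prodEval_add_int {ev : α → ℝ → ℝ} {L : List α} (n : ℤ)
    (hL : ∀ g ∈ L, ∀ s, ev g (s + n) = ev g s) (s : ℝ) :
    prodEval ev L (s + n) = prodEval ev L s := by
  unfold prodEval
  congr 1
  exact List.map_congr_left fun g hg => hL g hg s

end ListDer

/-! ### periodized bumps -/

namespace QBump

theorem hasCompactSupport_eval {g : QBump} (hg : g.Valid) : HasCompactSupport g.eval :=
  HasCompactSupport.of_support_subset_isCompact isCompact_Icc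
    ((support_eval_subset hg).trans Set.Ioo_subset_Icc_self)

/-- the periodization of a bump -/
noncomputable def pev (g : QBump) : ℝ → ℝ := per g.eval

theorem pev_contDiff {g : QBump} (hg : g.Valid) : ContDiff ℝ ∞ g.pev :=
  H854.per_contDiff (n := ⊤) (hasCompactSupport_eval hg) (contDiff_eval g)

theorem pev_add_int (g : QBump) (s : ℝ) (n : ℤ) : g.pev (s + n) = g.pev s :=
  H854.per_add_int _ _ _

theorem hasDerivAt_pev {g : QBump} (hg : g.Valid) (s : ℝ) :
    HasDerivAt g.pev ((g.der.map fun p => (p.1 : ℝ) * p.2.pev s).sum) s := by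
  have h := H854.per_hasDerivAt (hasCompactSupport_eval hg) (hasDerivAt_eval g) s
  refine h.congr_deriv ?_
  -- `per` commutes with the finite combination
  have key : ∀ C : List (ℚ × QBump), (∀ p ∈ C, p.2.Valid) →
      per (fun y => (C.map fun p => (p.1 : ℝ) * p.2.eval y).sum) s
        = (C.map fun p => (p.1 : ℝ) * p.2.pev s).sum ∧
      HasCompactSupport (fun y => (C.map fun p => (p.1 : ℝ) * p.2.eval y).sum) := by
    intro C hC
    induction C with
    | nil =>
      refine ⟨?_, ?_⟩
      · simp [per]
      · simp only [List.map_nil, List.sum_nil]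
        exact (HasCompactSupport.zero : HasCompactSupport (0 : ℝ → ℝ))
    | cons p C ih =>
      obtain ⟨ih1, ih2⟩ := ih (fun p' h => hC p' (List.mem_cons_of_mem _ h))
      have hp := hasCompactSupport_eval (hC p List.mem_cons_self)
      have hp' : HasCompactSupport (fun y => (p.1 : ℝ) * p.2.eval y) := hp.mul_left
      refine ⟨?_, ?_⟩
      · simp only [List.map_cons, List.sum_cons]
        rw [← ih1]
        unfold per pev per
        rw [Summable.tsum_add (H854.per_summable hp' s) (H854.per_summable ih2 s), tsum_mul_left]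
      · simp only [List.map_cons, List.sum_cons]
        exact hp'.add ih2
  exact (key g.der (valid_der hg)).1

end QBump

end Vale.Agent.P113.H280
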