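import Vale.Agent.P113.Defs

namespace Vale.Agent.P113.H280

open MeasureTheory Set
open scoped ContDiff

theorem rho_eq_glue (s : ℝ) : rho s = expNegInvGlue (1 - s ^ 2) := by
  unfold rho expNegInvGlue
  by_cases h : |s| < 1
  · have h2 : ¬ (1 - s ^ 2 ≤ 0) := by
      have := (sq_lt_one_iff_abs_lt_one s).2 h
      linarith
    rw [if_pos h, if_neg h2]
    congr 1
    rw [neg_div, one_div]
  · have h2 : 1 - s ^ 2 ≤ 0 := by
      have h3 : ¬ (s ^ 2 < 1) := fun h4 => h ((sq_lt_one_iff_abs_lt_one s).1 h4)
      linarith [not_lt.1 h3]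
    rw [if_neg h, if_pos h2]

theorem rho_contDiff : ContDiff ℝ ∞ rho := by
  have : rho = fun s => expNegInvGlue (1 - s ^ 2) := funext rho_eq_glue
  rw [this]
  exact (expNegInvGlue.contDiff (n := ⊤)).comp (contDiff_const.sub (contDiff_id.pow 2))

theorem rho_nonneg (s : ℝ) : 0 ≤ rho s := by
  rw [rho_eq_glue]; exact expNegInvGlue.nonneg _

theorem rho_pos {s : ℝ} (h : |s| < 1) : 0 < rho s := by
  rw [rho, if_pos h]; exact Real.exp_pos _

theorem rho_zero {s : ℝ} (h : 1 ≤ |s|) : rho s = 0 := by
  rw [rho, if_neg (not_lt.2 h)]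

theorem rho_continuous : Continuous rho := rho_contDiff.continuous

theorem rho_support : Function.support rho ⊆ Set.Ioo (-1) 1 := by
  intro s hs
  by_contra h
  apply hs
  apply rho_zero
  by_contra h2
  exact h (abs_lt.1 (not_le.1 h2))

theorem rho_tsupport : tsupport rho ⊆ Set.Icc (-1) 1 := by
  apply closure_minimal (rho_support.trans Set.Ioo_subset_Icc_self) isClosed_Icc

theorem rho_hasCompactSupport : HasCompactSupport rho :=
  HasCompactSupport.of_support_subset_isCompact isCompact_Icc (rho_support.trans Set.Ioo_subset_Icc_self)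

theorem rho_integrable : Integrable rho :=
  rho_continuous.integrable_of_hasCompactSupport rho_hasCompactSupport

theorem kappa_pos : 0 < kappa := by
  unfold kappa
  apply rho_continuous.integral_pos_of_hasCompactSupport_nonneg_nonzero rho_hasCompactSupport
    (fun s => rho_nonneg s) (x := 0)
  exact (rho_pos (by simp)).ne'

theorem sigma_hasDerivAt (s : ℝ) : HasDerivAt sigma (rho s) s := by
  have h : ∀ x, sigma x = (∫ y in Set.Iic 0, rho y) + ∫ y in (0:ℝ)..x, rho y := by
    intro x
    rw [intervalIntegral.integral_Iic_sub_Iic rho_integrable.integrableOn rho_integrable.integrableOn |>.symm]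
    unfold sigma
    ring
  have h' : sigma = fun x => (∫ y in Set.Iic 0, rho y) + ∫ y in (0:ℝ)..x, rho y := funext h
  rw [h']
  apply HasDerivAt.const_add
  exact intervalIntegral.integral_hasDerivAt_right (rho_continuous.intervalIntegrable _ _)
    (rho_continuous.stronglyMeasurableAtFilter _ _) rho_continuous.continuousAt

theorem sigma_deriv : deriv sigma = rho := funext fun s => (sigma_hasDerivAt s).deriv

theorem sigma_contDiff : ContDiff ℝ ∞ sigma := by
  rw [contDiff_infty_iff_deriv]
  exact ⟨fun s => (sigma_hasDerivAt s).differentiableAt, by rw [sigma_deriv]; exact rho_contDiff⟩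

theorem sigma_of_le {s : ℝ} (h : s ≤ -1) : sigma s = 0 := by
  unfold sigma
  apply setIntegral_eq_zero_of_forall_eq_zero
  intro x hx
  apply rho_zero
  rw [Set.mem_Iic] at hx
  rw [abs_of_nonpos (by linarith)]
  linarith

theorem sigma_of_ge {s : ℝ} (h : 1 ≤ s) : sigma s = kappa := by
  unfold sigma kappa
  apply setIntegral_eq_integral_of_forall_compl_eq_zero
  intro x hx
  apply rho_zero
  rw [Set.mem_Iic, not_le] at hx
  rw [abs_of_nonneg (by linarith)]
  linarith

theorem sigma_mono : Monotone sigma := by
  apply monotone_of_deriv_nonneg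
  · exact fun s => (sigma_hasDerivAt s).differentiableAt
  · intro s; rw [sigma_deriv]; exact rho_nonneg s

theorem sigma_nonneg (s : ℝ) : 0 ≤ sigma s := by
  rcases le_total s (-1) with h | h
  · rw [sigma_of_le h]
  · rw [← sigma_of_le (le_refl (-1))]; exact sigma_mono h

theorem sigma_le_kappa (s : ℝ) : sigma s ≤ kappa := by
  rcases le_total s 1 with h | h
  · rw [← sigma_of_ge (le_refl 1)]; exact sigma_mono h
  · rw [sigma_of_ge h]

theorem plat_hasDerivAt (l s : ℝ) : HasDerivAt (plateau l) (rho s - rho (s - l)) s := by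
  unfold plateau
  apply (sigma_hasDerivAt s).sub
  have := (sigma_hasDerivAt (s - l)).comp s ((hasDerivAt_id s).sub_const l)
  rw [mul_one] at this
  exact this

theorem plat_contDiff (l : ℝ) : ContDiff ℝ ∞ (plateau l) := by
  unfold plateau
  exact sigma_contDiff.sub (sigma_contDiff.comp (contDiff_id.sub contDiff_const))

theorem plat_eq_kappa {l s : ℝ} (h1 : 1 ≤ s) (h2 : s ≤ l - 1) : plateau l s = kappa := by
  unfold plateau
  rw [sigma_of_ge h1, sigma_of_le (by linarith), sub_zero]

theorem plat_eq_zero_left {l s : ℝ} (hl : 0 ≤ l) (h : s ≤ -1) : plateau l s = 0 := by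
  unfold plateau
  rw [sigma_of_le h, sigma_of_le (by linarith), sub_zero]

theorem plat_eq_zero_right {l s : ℝ} (hl : 0 ≤ l) (h : l + 1 ≤ s) : plateau l s = 0 := by
  unfold plateau
  rw [sigma_of_ge (by linarith), sigma_of_ge (by linarith), sub_self]

theorem plat_nonneg {l : ℝ} (hl : 0 ≤ l) (s : ℝ) : 0 ≤ plateau l s := by
  unfold plateau
  exact sub_nonneg.2 (sigma_mono (by linarith))

theorem plat_le_kappa (l s : ℝ) : plateau l s ≤ kappa := by
  unfold plateau
  linarith [sigma_nonneg (s - l), sigma_le_kappa s]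

theorem plat_support {l : ℝ} (hl : 0 ≤ l) : Function.support (plateau l) ⊆ Set.Ioo (-1) (l + 1) := by
  intro s hs
  constructor
  · by_contra h; exact hs (plat_eq_zero_left hl (not_lt.1 h))
  · by_contra h; exact hs (plat_eq_zero_right hl (not_lt.1 h))

/-- the derivatives of `rho` vanish outside `(-1,1)` -/
theorem iteratedDeriv_rho_zero (j : ℕ) {s : ℝ} (h : 1 ≤ |s|) : iteratedDeriv j rho s = 0 := by
  by_contra hne
  have hcont : Continuous (iteratedDeriv j rho) :=
    rho_contDiff.continuous_iteratedDeriv j (by exact_mod_cast le_top)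
  -- the set where it is nonzero is open and contained in the closed set tsupport
  have hsub : Function.support (iteratedDeriv j rho) ⊆ tsupport rho := by
    have := support_iteratedFDeriv_subset (𝕜 := ℝ) (f := rho) j
    intro x hx
    apply this
    intro h0
    apply hx
    rw [iteratedDeriv_eq_iteratedFDeriv, h0]
    simp
  have hopen : IsOpen (Function.support (iteratedDeriv j rho)) := hcont.isOpen_support
  have hsub2 : Function.support (iteratedDeriv j rho) ⊆ interior (Set.Icc (-1) 1) :=
    interior_maximal (hsub.trans rho_tsupport) hopen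
  rw [interior_Icc] at hsub2
  have := hsub2 hne
  rw [Set.mem_Ioo, ← abs_lt] at this
  linarith

theorem iteratedDeriv_rho_contDiff (j : ℕ) : ContDiff ℝ ∞ (iteratedDeriv j rho) := by
  induction j with
  | zero => rw [iteratedDeriv_zero]; exact rho_contDiff
  | succ n ih =>
    rw [iteratedDeriv_succ]
    exact (contDiff_infty_iff_deriv.1 ih).2

theorem iteratedDeriv_rho_hasDerivAt (j : ℕ) (s : ℝ) :
    HasDerivAt (iteratedDeriv j rho) (iteratedDeriv (j + 1) rho s) s := by
  rw [iteratedDeriv_succ]
  exact ((contDiff_infty_iff_deriv.1 (iteratedDeriv_rho_contDiff j)).1 s).hasDerivAt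

end Vale.Agent.P113.H280
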