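import Vale.Agent.P113.H280.ListDer

namespace Vale.Agent.P113.H280

open Set
open scoped ContDiff
open Vale.Agent.P113.H854 (per)

/-- A factor of `θ(t)`: `raw g` is `g(t)` and `per g` is `P[g](t)`. -/
inductive TFac
  | raw (g : QBump)
  | per (g : QBump)

namespace TFac

def bump : TFac → QBump
  | .raw g => g
  | .per g => g

def Valid (f : TFac) : Prop := f.bump.Valid

def IsPer : TFac → Prop
  | .raw _ => False
  | .per _ => True

noncomputable def eval : TFac → ℝ → ℝ
  | .raw g, s => g.eval s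
  | .per g, s => g.pev s

def der : TFac → List (ℚ × TFac)
  | .raw g => g.der.map fun p => (p.1, .raw p.2)
  | .per g => g.der.map fun p => (p.1, .per p.2)

theorem valid_der {f : TFac} (hf : f.Valid) : ∀ p ∈ f.der, p.2.Valid := by
  intro p hp
  cases f with
  | raw g =>
    simp only [der, List.mem_map] at hp
    obtain ⟨p', hp', rfl⟩ := hp
    exact QBump.valid_der hf p' hp'
  | per g =>
    simp only [der, List.mem_map] at hp
    obtain ⟨p', hp', rfl⟩ := hp
    exact QBump.valid_der hf p' hp'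

theorem isPer_der {f : TFac} (hf : f.IsPer) : ∀ p ∈ f.der, p.2.IsPer := by
  intro p hp
  cases f with
  | raw g => exact hf.elim
  | per g =>
    simp only [der, List.mem_map] at hp
    obtain ⟨p', hp', rfl⟩ := hp
    trivial

theorem hasDerivAt_eval {f : TFac} (hf : f.Valid) (s : ℝ) :
    HasDerivAt f.eval ((f.der.map fun p => (p.1 : ℝ) * p.2.eval s).sum) s := by
  cases f with
  | raw g =>
    have := QBump.hasDerivAt_eval g s
    refine HasDerivAt.congr_deriv (f := g.eval) this ?_
    simp [der, List.map_map, Function.comp_def, eval]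
  | per g =>
    have := QBump.hasDerivAt_pev hf s
    refine HasDerivAt.congr_deriv (f := g.pev) this ?_
    simp [der, bump, List.map_map, Function.comp_def, eval]

theorem contDiff_eval {f : TFac} (hf : f.Valid) : ContDiff ℝ ∞ f.eval := by
  cases f with
  | raw g => exact QBump.contDiff_eval g
  | per g => exact QBump.pev_contDiff hf

end TFac

/-- One term `c θ(t) h₁(x₁) h₂(x₂) h₃(x₃)` with `c = q ν^m κ^n ∏ ln r`. -/
structure QTerm where
  q : ℚ
  m : ℕ
  n : ℤ
  logs : List ℚ
  time : List TFac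
  sp : Fin 3 → List QBump

namespace QTerm

def Valid (T : QTerm) : Prop :=
  (∀ r ∈ T.logs, 0 < r) ∧ (∀ f ∈ T.time, f.Valid) ∧ ∀ i, ∀ g ∈ T.sp i, g.Valid

def IsPer (T : QTerm) : Prop := ∀ f ∈ T.time, f.IsPer

noncomputable def coef (ν : ℝ) (T : QTerm) : ℝ :=
  (T.q : ℝ) * ν ^ T.m * kappa ^ T.n * (T.logs.map fun r : ℚ => Real.log (r : ℝ)).prod

noncomputable def eval (ν : ℝ) (T : QTerm) (t : ℝ) (x : Fin 3 → ℝ) : ℝ :=
  T.coef ν * prodEval TFac.eval T.time t * ∏ i, prodEval QBump.pev (T.sp i) (x i)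

/-- multiply the coefficient by `q * ν^m * κ^n` -/
def smul (q : ℚ) (m : ℕ) (n : ℤ) (T : QTerm) : QTerm :=
  { T with q := q * T.q, m := m + T.m, n := n + T.n }

def mul (T T' : QTerm) : QTerm where
  q := T.q * T'.q
  m := T.m + T'.m
  n := T.n + T'.n
  logs := T.logs ++ T'.logs
  time := T.time ++ T'.time
  sp := fun i => T.sp i ++ T'.sp i

/-- time derivative -/
def dt (T : QTerm) : List QTerm :=
  (listDer TFac.der T.time).map fun p => { T with q := p.1 * T.q, time := p.2 }

/-- space derivative -/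
def dx (i : Fin 3) (T : QTerm) : List QTerm :=
  (listDer QBump.der (T.sp i)).map fun p =>
    { T with q := p.1 * T.q, sp := Function.update T.sp i p.2 }

theorem eval_smul (ν : ℝ) (q : ℚ) (m : ℕ) (n : ℤ) (T : QTerm) (t : ℝ) (x : Fin 3 → ℝ) :
    (T.smul q m n).eval ν t x = (q : ℝ) * ν ^ m * kappa ^ n * T.eval ν t x := by
  simp only [eval, coef, smul]
  rw [zpow_add₀ kappa_pos.ne', pow_add]
  push_cast
  ring

theorem eval_mul (ν : ℝ) (T T' : QTerm) (t : ℝ) (x : Fin 3 → ℝ) :
    (T.mul T').eval ν t x = T.eval ν t x * T'.eval ν t x := by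
  simp only [eval, coef, mul, List.map_append, List.prod_append, prodEval_append,
    Finset.prod_mul_distrib]
  rw [zpow_add₀ kappa_pos.ne', pow_add]
  push_cast
  ring

theorem valid_smul {T : QTerm} (h : T.Valid) (q : ℚ) (m : ℕ) (n : ℤ) : (T.smul q m n).Valid := h

theorem valid_mul {T T' : QTerm} (h : T.Valid) (h' : T'.Valid) : (T.mul T').Valid := by
  refine ⟨?_, ?_, ?_⟩
  · intro r hr
    rcases List.mem_append.1 hr with hr | hr
    · exact h.1 r hr
    · exact h'.1 r hr
  · intro r hr
    rcases List.mem_append.1 hr with hr | hr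
    · exact h.2.1 r hr
    · exact h'.2.1 r hr
  · intro i r hr
    rcases List.mem_append.1 hr with hr | hr
    · exact h.2.2 i r hr
    · exact h'.2.2 i r hr

theorem valid_dt {T : QTerm} (h : T.Valid) : ∀ T' ∈ T.dt, T'.Valid := by
  intro T' hT'
  simp only [dt, List.mem_map] at hT'
  obtain ⟨p, hp, rfl⟩ := hT'
  exact ⟨h.1, listDer_good (good := TFac.Valid) (fun g hg => TFac.valid_der hg) h.2.1 p hp, h.2.2⟩

theorem valid_dx {T : QTerm} (h : T.Valid) (i : Fin 3) : ∀ T' ∈ T.dx i, T'.Valid := by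
  intro T' hT'
  simp only [dx, List.mem_map] at hT'
  obtain ⟨p, hp, rfl⟩ := hT'
  refine ⟨h.1, h.2.1, ?_⟩
  intro j
  rcases eq_or_ne j i with rfl | hne
  · simp only [Function.update_self]
    exact listDer_good (good := QBump.Valid) (fun g hg => QBump.valid_der hg) (h.2.2 _) p hp
  · simp only [Function.update_of_ne hne]
    exact h.2.2 j

theorem isPer_dt {T : QTerm} (h : T.IsPer) : ∀ T' ∈ T.dt, T'.IsPer := by
  intro T' hT'
  simp only [dt, List.mem_map] at hT'
  obtain ⟨p, hp, rfl⟩ := hT'
  exact listDer_good (good := TFac.IsPer) (fun g hg => TFac.isPer_der hg) h p hp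

theorem isPer_dx {T : QTerm} (h : T.IsPer) (i : Fin 3) : ∀ T' ∈ T.dx i, T'.IsPer := by
  intro T' hT'
  simp only [dx, List.mem_map] at hT'
  obtain ⟨p, hp, rfl⟩ := hT'
  exact h

theorem hasDerivAt_time {ν : ℝ} {T : QTerm} (h : T.Valid) (t : ℝ) (x : Fin 3 → ℝ) :
    HasDerivAt (fun s => T.eval ν s x) ((T.dt.map fun T' => T'.eval ν t x).sum) t := by
  have h1 := hasDerivAt_prodEval (good := TFac.Valid)
    (fun g hg s => TFac.hasDerivAt_eval hg s) h.2.1 t
  have h2 := (h1.const_mul (T.coef ν)).mul_const (∏ i, prodEval QBump.pev (T.sp i) (x i))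
  refine h2.congr_deriv ?_
  unfold combEval dt
  rw [List.map_map, ← List.sum_map_mul_left, ← List.sum_map_mul_right]
  congr 1
  apply List.map_congr_left
  intro p _
  simp only [Function.comp, eval, coef]
  push_cast
  ring

theorem hasDerivAt_space {ν : ℝ} {T : QTerm} (h : T.Valid) (i : Fin 3) (t : ℝ) (x : Fin 3 → ℝ)
    (y : ℝ) :
    HasDerivAt (fun s => T.eval ν t (Function.update x i s))
      (((T.dx i).map fun T' => T'.eval ν t (Function.update x i y)).sum) y := by
  have h1 := hasDerivAt_prodEval (good := QBump.Valid)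
    (fun g hg s => QBump.hasDerivAt_pev hg s) (h.2.2 i) y
  have key : ∀ (sp : Fin 3 → List QBump) (s : ℝ),
      (∏ j, prodEval QBump.pev (sp j) (Function.update x i s j))
        = prodEval QBump.pev (sp i) s *
          ∏ j ∈ Finset.univ.erase i, prodEval QBump.pev (sp j) (x j) := by
    intro sp s
    rw [← Finset.mul_prod_erase Finset.univ _ (Finset.mem_univ i), Function.update_self]
    congr 1
    apply Finset.prod_congr rfl
    intro j hj
    rw [Function.update_of_ne (Finset.ne_of_mem_erase hj)]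
  have e : (fun s => T.eval ν t (Function.update x i s)) = fun s =>
      (T.coef ν * prodEval TFac.eval T.time t *
        ∏ j ∈ Finset.univ.erase i, prodEval QBump.pev (T.sp j) (x j)) *
        prodEval QBump.pev (T.sp i) s := by
    funext s
    simp only [eval]
    rw [key]
    ring
  rw [e]
  refine (h1.const_mul _).congr_deriv ?_
  unfold combEval dx
  rw [List.map_map, ← List.sum_map_mul_left]
  congr 1
  apply List.map_congr_left
  intro p _
  simp only [Function.comp, eval, coef]
  rw [key]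
  have e2 : (∏ j ∈ Finset.univ.erase i,
      prodEval QBump.pev (Function.update T.sp i p.2 j) (x j))
      = ∏ j ∈ Finset.univ.erase i, prodEval QBump.pev (T.sp j) (x j) := by
    apply Finset.prod_congr rfl
    intro j hj
    rw [Function.update_of_ne (Finset.ne_of_mem_erase hj)]
  rw [e2, Function.update_self]
  push_cast
  ring

theorem contDiff_eval {ν : ℝ} {T : QTerm} (h : T.Valid) :
    ContDiff ℝ ∞ (fun p : ℝ × (Fin 3 → ℝ) => T.eval ν p.1 p.2) := by
  unfold eval
  refine (contDiff_const.mul ((prodEval_contDiff fun g hg =>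
    TFac.contDiff_eval (h.2.1 g hg)).comp contDiff_fst)).mul ?_
  refine contDiff_prod fun i _ => ?_
  refine (prodEval_contDiff fun g hg => QBump.pev_contDiff (h.2.2 i g hg)).comp ?_
  exact (contDiff_apply ℝ ℝ i).comp contDiff_snd

theorem eval_add_int {ν : ℝ} (T : QTerm) (t : ℝ) (x : Fin 3 → ℝ) (n : Fin 3 → ℤ) :
    T.eval ν t (fun i => x i + n i) = T.eval ν t x := by
  unfold eval
  congr 1
  apply Finset.prod_congr rfl
  intro i _
  exact prodEval_add_int _ (fun g _ s => QBump.pev_add_int g s _) _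

end QTerm

/-! ### finite lists of terms -/

/-- value of a finite list of terms -/
noncomputable def evalL (ν : ℝ) (L : List QTerm) (t : ℝ) (x : Fin 3 → ℝ) : ℝ :=
  (L.map fun T => T.eval ν t x).sum

def ValidL (L : List QTerm) : Prop := ∀ T ∈ L, T.Valid

def dtL (L : List QTerm) : List QTerm := L.flatMap QTerm.dt

def dxL (i : Fin 3) (L : List QTerm) : List QTerm := L.flatMap (QTerm.dx i)

def smulL (q : ℚ) (m : ℕ) (n : ℤ) (L : List QTerm) : List QTerm := L.map (QTerm.smul q m n)

def mulL (L L' : List QTerm) : List QTerm := L.flatMap fun T => L'.map fun T' => T.mul T'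

@[simp] theorem evalL_nil (ν : ℝ) (t : ℝ) (x : Fin 3 → ℝ) : evalL ν [] t x = 0 := by
  simp [evalL]

@[simp] theorem evalL_cons (ν : ℝ) (T : QTerm) (L : List QTerm) (t : ℝ) (x : Fin 3 → ℝ) :
    evalL ν (T :: L) t x = T.eval ν t x + evalL ν L t x := by
  simp [evalL]

@[simp] theorem evalL_append (ν : ℝ) (L L' : List QTerm) (t : ℝ) (x : Fin 3 → ℝ) :
    evalL ν (L ++ L') t x = evalL ν L t x + evalL ν L' t x := by
  simp [evalL]

theorem evalL_smulL (ν : ℝ) (q : ℚ) (m : ℕ) (n : ℤ) (L : List QTerm) (t : ℝ) (x : Fin 3 → ℝ) :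
    evalL ν (smulL q m n L) t x = (q : ℝ) * ν ^ m * kappa ^ n * evalL ν L t x := by
  unfold evalL smulL
  rw [List.map_map, ← List.sum_map_mul_left]
  congr 1
  exact List.map_congr_left fun T _ => T.eval_smul ν q m n t x

theorem evalL_mulL (ν : ℝ) (L L' : List QTerm) (t : ℝ) (x : Fin 3 → ℝ) :
    evalL ν (mulL L L') t x = evalL ν L t x * evalL ν L' t x := by
  induction L with
  | nil => simp [mulL]
  | cons T L ih =>
    have : mulL (T :: L) L' = (L'.map fun T' => T.mul T') ++ mulL L L' := by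
      simp [mulL]
    rw [this, evalL_append, ih, evalL_cons, add_mul]
    congr 1
    unfold evalL
    rw [List.map_map, ← List.sum_map_mul_left]
    congr 1
    exact List.map_congr_left fun T' _ => T.eval_mul ν T' t x

theorem ValidL.append {L L' : List QTerm} (h : ValidL L) (h' : ValidL L') : ValidL (L ++ L') := by
  intro T hT
  rcases List.mem_append.1 hT with hT | hT
  · exact h T hT
  · exact h' T hT

theorem ValidL.smulL {L : List QTerm} (h : ValidL L) (q : ℚ) (m : ℕ) (n : ℤ) :
    ValidL (smulL q m n L) := by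
  intro T hT
  obtain ⟨T', hT', rfl⟩ := List.mem_map.1 hT
  exact (h T' hT')

theorem ValidL.mulL {L L' : List QTerm} (h : ValidL L) (h' : ValidL L') : ValidL (mulL L L') := by
  intro T hT
  obtain ⟨T1, hT1, hT⟩ := List.mem_flatMap.1 hT
  obtain ⟨T2, hT2, rfl⟩ := List.mem_map.1 hT
  exact QTerm.valid_mul (h _ hT1) (h' _ hT2)

theorem ValidL.dtL {L : List QTerm} (h : ValidL L) : ValidL (dtL L) := by
  intro T hT
  obtain ⟨T1, hT1, hT⟩ := List.mem_flatMap.1 hT
  exact QTerm.valid_dt (h _ hT1) _ hT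

theorem ValidL.dxL {L : List QTerm} (h : ValidL L) (i : Fin 3) : ValidL (dxL i L) := by
  intro T hT
  obtain ⟨T1, hT1, hT⟩ := List.mem_flatMap.1 hT
  exact QTerm.valid_dx (h _ hT1) i _ hT

theorem hasDerivAt_evalL_time {ν : ℝ} {L : List QTerm} (h : ValidL L) (t : ℝ) (x : Fin 3 → ℝ) :
    HasDerivAt (fun s => evalL ν L s x) (evalL ν (dtL L) t x) t := by
  induction L with
  | nil => simpa [dtL] using hasDerivAt_const t (0 : ℝ)
  | cons T L ih =>
    have h1 := QTerm.hasDerivAt_time (ν := ν) (h T List.mem_cons_self) t x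
    have h2 := ih fun T' h' => h T' (List.mem_cons_of_mem _ h')
    have e : dtL (T :: L) = T.dt ++ dtL L := by simp [dtL]
    rw [e, evalL_append]
    simp only [evalL_cons]
    exact h1.add h2

theorem hasDerivAt_evalL_space {ν : ℝ} {L : List QTerm} (h : ValidL L) (i : Fin 3) (t : ℝ)
    (x : Fin 3 → ℝ) (y : ℝ) :
    HasDerivAt (fun s => evalL ν L t (Function.update x i s))
      (evalL ν (dxL i L) t (Function.update x i y)) y := by
  induction L with
  | nil => simpa [dxL] using hasDerivAt_const y (0 : ℝ)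
  | cons T L ih =>
    have h1 := QTerm.hasDerivAt_space (ν := ν) (h T List.mem_cons_self) i t x y
    have h2 := ih fun T' h' => h T' (List.mem_cons_of_mem _ h')
    have e : dxL i (T :: L) = T.dx i ++ dxL i L := by simp [dxL]
    rw [e, evalL_append]
    simp only [evalL_cons]
    exact h1.add h2

theorem contDiff_evalL {ν : ℝ} {L : List QTerm} (h : ValidL L) :
    ContDiff ℝ ∞ (fun p : ℝ × (Fin 3 → ℝ) => evalL ν L p.1 p.2) := by
  induction L with
  | nil => simpa using (contDiff_const : ContDiff ℝ ∞ fun _ : ℝ × (Fin 3 → ℝ) => (0:ℝ))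
  | cons T L ih =>
    simp only [evalL_cons]
    exact (QTerm.contDiff_eval (h T List.mem_cons_self)).add
      (ih fun T' h' => h T' (List.mem_cons_of_mem _ h'))

theorem evalL_add_int {ν : ℝ} (L : List QTerm) (t : ℝ) (x : Fin 3 → ℝ) (n : Fin 3 → ℤ) :
    evalL ν L t (fun i => x i + n i) = evalL ν L t x := by
  unfold evalL
  congr 1
  exact List.map_congr_left fun T _ => T.eval_add_int t x n

end Vale.Agent.P113.H280
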